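import Vale.Agent.P308.H581.Defs

/-!
# Graphs with given degrees, matchings of given size: definitions
-/

namespace Vale.Agent.P308.Deg

open Vale.Agent.P308.QP Vale.Agent.P308.Hafnian

open scoped Classical in
/-- The sum over all simple graphs `H` on the vertex set `{0, ..., n - 1}` such that every vertex
`v` has degree `t v` in `H`, of the product of the entries of `A` at the edges of `H`. If `A` is the
adjacency matrix of a graph `G`, this is the number of spanning subgraphs of `G` with degrees
`t`. -/
noncomputable def degSum {R : Type*} [CommSemiring R] {n : ℕ} (A : Matrix (Fin n) (Fin n) R)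
    (t : Fin n → ℕ) : R :=
  ∑ H : SimpleGraph (Fin n) with ∀ v, H.degree v = t v,
    ∏ p : Fin n × Fin n with p.1 < p.2 ∧ H.Adj p.1 p.2, A p.1 p.2

open scoped Classical in
/-- The number of simple graphs on the vertex set `{0, ..., n - 1}` in which every vertex `v` has
degree `t v`. -/
noncomputable def numGraphs {n : ℕ} (t : Fin n → ℕ) : ℕ :=
  (Finset.univ.filter fun H : SimpleGraph (Fin n) => ∀ v, H.degree v = t v).card

/-- The sum over the matchings with exactly `k` edges of the complete graph on `{0, ..., n - 1}`
(given by the maps `f` with `f (f x) = x`, the edges are the pairs `{x, f x}` with `x < f x`) of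
the product of the entries of `A` at the edges. If `A` is the adjacency matrix of a graph `G`,
this is the number of matchings of `G` with exactly `k` edges. -/
def matchSum {R : Type*} [CommSemiring R] {n : ℕ} (A : Matrix (Fin n) (Fin n) R) (k : ℕ) : R :=
  ∑ f : Fin n → Fin n with (∀ x, f (f x) = x) ∧ (Finset.univ.filter fun x => x < f x).card = k,
    ∏ x with x < f x, A x (f x)

/-- A weighted graph: a symmetric matrix with nonnegative rational entries (the diagonal entries
play no role). -/
structure WeightedGraph where
  /-- number of vertices -/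
  n : ℕ
  /-- weights -/
  A : Matrix (Fin n) (Fin n) ℚ≥0
  symm : A.IsSymm

/-- a word for a list of numbers: the numbers in binary, combined by `block` -/
def degWord {n : ℕ} (t : Fin n → ℕ) : List Bool := (List.ofFn fun v => (t v).bits).foldr block []

/-- the input word: the word `u` and the parameters `e`, `l` in unary -/
def inputOf (u : List Bool) (e l : ℕ) : List Bool :=
  block u (block (List.replicate e true) (List.replicate l true))

/-- **Fully polynomial randomized approximation scheme** for the numbers `val x`, where the input
`x` is given by the word `code x`. On input `code x`, `e = ⌈1 / ε⌉`, `l = ⌈log₂ (1 / δ)⌉` and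
`b ^ d` random bits, `b = |code x| + e + l + 2`, the machine halts within `b ^ d'` steps and its
output is, with probability at least `1 - δ`, a fraction `a / c` between `(1 - ε) val x` and
`(1 + ε) val x`. -/
def HasFPRAS {ι : Type*} (code : ι → List Bool) (val : ι → ℚ≥0) : Prop :=
  ∃ (f : List Bool → List Bool)
    (M : Turing.TM2ComputableInPolyTime (id : List Bool → List Bool)
      (id : List Bool → List Bool) f), (∀ k, Finite (M.tm.Γ k)) ∧
    ∃ d d' : ℕ, ∀ (x : ι) (ε δ : ℝ), 0 < ε → ε < 1 → 0 < δ → δ < 1 →
      ∀ e l b : ℕ, e = ⌈1 / ε⌉₊ → l = ⌈Real.logb 2 (1 / δ)⌉₊ →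
        b = (code x).length + e + l + 2 →
        (∀ w : List Bool, w.length = b ^ d →
          M.time.eval (block (inputOf (code x) e l) w).length ≤ b ^ d') ∧
        1 - δ ≤ prob (b ^ d) fun w => ∃ a c : ℕ, 0 < c ∧
          f (block (inputOf (code x) e l) w) = block a.bits c.bits ∧
          (1 - ε) * ((val x : ℚ≥0) : ℝ) ≤ (a : ℝ) / c ∧
          (a : ℝ) / c ≤ (1 + ε) * ((val x : ℚ≥0) : ℝ)

end Vale.Agent.P308.Deg
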