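import Vale.Agent.P308.H581.Graph
import Vale.Agent.P308.H655.Defs

/-!
# The gadgets
-/

set_option linter.all false

namespace Vale.Agent.P308.Deg

open Vale.Agent.Lib.PolyTime Vale.Agent.P308.Alg Vale.Agent.P308.Hafnian Finset Function

/-- owners of the cores: the vertex `v` has `n - t v` cores -/
def own (n : ℕ) (t : List ℕ) : List ℕ :=
  ((List.range n).map fun v => List.replicate (n - t.getD v 0) v).flatten

/-- ports `x < n * n` (the pair `(x / n, x % n)`) and cores `n * n + j` with owner `o[j]` -/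
def gadF (n : ℕ) (B : ℕ → ℕ → ℕ) (o : List ℕ) (x y : ℕ) : ℕ :=
  if x < n * n ∧ y < n * n then
    if x / n = y % n ∧ x % n = y / n ∧ x / n ≠ x % n then B (x / n) (x % n) else 0
  else if x < n * n ∧ n * n ≤ y then if o.getD (y - n * n) 0 = x / n then 1 else 0
  else if n * n ≤ x ∧ y < n * n then if o.getD (x - n * n) 0 = y / n then 1 else 0
  else 0

/-- the matrix for the sum over the graphs with degrees `t` -/
def gad (Q : List (List ℕ)) (t : List ℕ) : List (List ℕ) :=
  Alg.mk (Q.length * Q.length + (own Q.length t).length)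
    (gadF Q.length (ent Q) (own Q.length t))

/-- number of dummies for matchings with `k` edges -/
def dum (n k : ℕ) : ℕ := if 2 * k ≤ n then n - 2 * k else n + 1

/-- `n` old vertices and the dummies -/
def gadMF (n : ℕ) (B : ℕ → ℕ → ℕ) (x y : ℕ) : ℕ :=
  if x < n ∧ y < n then B x y
  else if x < n ∨ y < n then 1
  else 0

/-- the matrix for the sum over the matchings with `k` edges -/
def gadM (Q : List (List ℕ)) (k : ℕ) : List (List ℕ) :=
  Alg.mk (Q.length + dum Q.length k) (gadMF Q.length (ent Q))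

/-- factorial -/
def facN (m : ℕ) : ℕ := ((List.range m).map fun i => i + 1).prod

/-- product of the factorials of the numbers of cores -/
def facs (n : ℕ) (t : List ℕ) : ℕ := ((List.range n).map fun v => facN (n - t.getD v 0)).prod

/-- number of edges -/
def edg (n : ℕ) (t : List ℕ) : ℕ := ((List.range n).map fun v => Min.min (t.getD v 0) n).sum / 2

/-- the matrix with entries `1` -/
def ones (n : ℕ) : List (List ℕ) := Alg.mk n fun _ _ => 1

/-! Statements to be proved (files C1, C2, C3). -/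

/-- C1 -/
def C1 : Prop := ∀ (Q : List (List ℕ)) (t : List ℕ), Sym Q → Sym (gad Q t) ∧
  HQ (gad Q t) = facs Q.length t *
    degSum (Matrix.of fun i j : Fin Q.length => ent Q i j) (fun v => t.getD v 0)

/-- C2 -/
def C2 : Prop := ∀ (Q : List (List ℕ)) (k : ℕ), Sym Q → Sym (gadM Q k) ∧
  HQ (gadM Q k) = facN (dum Q.length k) *
    matchSum (Matrix.of fun i j : Fin Q.length => ent Q i j) k

/-- C3 -/
def C3 : Prop := ∀ (n : ℕ) (A : Matrix (Fin n) (Fin n) ℚ≥0), A.IsSymm →
  (∀ t : Fin n → ℕ, ((HQ (gad (intM (matL A)) (List.ofFn t)) : ℕ) : ℚ≥0) =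
    ((dn (matL A) ^ edg n (List.ofFn t) * facs n (List.ofFn t) : ℕ) : ℚ≥0) * degSum A t) ∧
  ∀ k : ℕ, ((HQ (gadM (intM (matL A)) k) : ℕ) : ℚ≥0) =
    ((dn (matL A) ^ Min.min k n * facN (dum n k) : ℕ) : ℚ≥0) * matchSum A k

/-- C4 -/
def C4 : Prop := ∀ (n : ℕ) (t : Fin n → ℕ),
  HQ (gad (ones n) (List.ofFn t)) = facs n (List.ofFn t) * numGraphs t

end Vale.Agent.P308.Deg
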