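import Vale.Agent.P308.H655.Exp
import Vale.Agent.P308.H655.Gad

/-!
# Matchings with `k` edges
-/

set_option linter.all false

namespace Vale.Agent.P308.Deg

open Vale.Agent.Lib.PolyTime Vale.Agent.P308.Alg Vale.Agent.P308.Hafnian Finset Function

open scoped Nat

theorem facN_eq (m : ℕ) : facN m = m ! := by
  unfold facN
  induction m with
  | zero => rfl
  | succ m ih =>
    rw [List.range_succ, List.map_append, List.prod_append, ih]
    simp [Nat.factorial_succ, mul_comm]

theorem card_moved {n : ℕ} (f : Fin n → Fin n) (hf : ∀ x, f (f x) = x) :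
    (univ.filter fun x => f x ≠ x).card = 2 * (univ.filter fun x => x < f x).card := by
  have h1 : (univ.filter fun x => f x ≠ x) =
      (univ.filter fun x => x < f x) ∪ univ.filter fun x => f x < x := by
    ext x
    simp only [mem_filter, mem_univ, true_and, mem_union]
    constructor
    · intro h
      rcases lt_or_gt_of_ne h with h | h
      · exact Or.inr h
      · exact Or.inl h
    · rintro (h | h)
      · exact h.ne'
      · exact h.ne
  have h2 : (univ.filter fun x => f x < x).card = (univ.filter fun x => x < f x).card := by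
    refine card_bij (fun x _ => f x) ?_ ?_ ?_
    · intro x hx
      rw [mem_filter] at hx ⊢
      exact ⟨mem_univ _, by rw [hf]; exact hx.2⟩
    · intro x _ y _ h
      have := congrArg f h
      rwa [hf, hf] at this
    · intro y hy
      rw [mem_filter] at hy
      exact ⟨f y, by rw [mem_filter]; exact ⟨mem_univ _, by rw [hf]; exact hy.2⟩, hf y⟩
  rw [h1, card_union_of_disjoint, h2, two_mul]
  rw [disjoint_left]
  intro x hx hx'
  rw [mem_filter] at hx hx'
  exact absurd hx.2 (not_lt.2 hx'.2.le)

/-- Hafnians of the parts with `2 k` elements. -/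
theorem sum_H {n : ℕ} {R : Type*} [CommSemiring R] (A : Fin n → Fin n → R) (k : ℕ) :
    ∑ S : Finset (Fin n) with S.card = 2 * k, H A S = matchSum (Matrix.of A) k := by
  classical
  unfold H matchSum
  rw [sum_sigma']
  refine sum_bij' (fun a _ => a.2) (fun f _ => ⟨univ.filter fun x => f x ≠ x, f⟩) ?_ ?_ ?_ ?_ ?_
  · rintro ⟨S, f⟩ h
    rw [mem_sigma, mem_filter] at h
    obtain ⟨⟨-, hS⟩, hf⟩ := h
    dsimp only at hS hf ⊢
    rw [Hafnian.mem_inv] at hf
    have hff : ∀ x, f (f x) = x := by
      intro x
      by_cases hx : x ∈ S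
      · exact (hf.1 x hx).2.2
      · rw [hf.2 x hx, hf.2 x hx]
    have hSf : (univ.filter fun x => f x ≠ x) = S := by
      ext x
      simp only [mem_filter, mem_univ, true_and]
      constructor
      · intro h
        by_contra hx
        exact h (hf.2 x hx)
      · intro h
        exact (hf.1 x h).2.1
    rw [mem_filter]
    refine ⟨mem_univ _, hff, ?_⟩
    have := card_moved f hff
    rw [hSf] at this
    omega
  · intro f hf
    rw [mem_filter] at hf
    obtain ⟨-, hff, hk⟩ := hf
    rw [mem_sigma, mem_filter]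
    refine ⟨⟨mem_univ _, ?_⟩, ?_⟩
    · show (univ.filter fun x => f x ≠ x).card = 2 * k
      rw [card_moved f hff, hk]
    · show f ∈ inv (univ.filter fun x => f x ≠ x)
      rw [Hafnian.mem_inv]
      constructor
      · intro x hx
        rw [mem_filter] at hx
        refine ⟨?_, hx.2, hff x⟩
        rw [mem_filter]
        exact ⟨mem_univ _, by rw [hff]; exact hx.2.symm⟩
      · intro x hx
        by_contra h
        exact hx (by rw [mem_filter]; exact ⟨mem_univ _, h⟩)
  · rintro ⟨S, f⟩ h
    rw [mem_sigma, mem_filter] at h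
    obtain ⟨⟨-, hS⟩, hf⟩ := h
    dsimp only at hS hf ⊢
    rw [Hafnian.mem_inv] at hf
    have hSf : (univ.filter fun x => f x ≠ x) = S := by
      ext x
      simp only [mem_filter, mem_univ, true_and]
      constructor
      · intro h
        by_contra hx
        exact h (hf.2 x hx)
      · intro h
        exact (hf.1 x h).2.1
    rw [hSf]
  · intro f hf
    rfl
  · rintro ⟨S, f⟩ h
    rw [mem_sigma, mem_filter] at h
    obtain ⟨⟨-, hS⟩, hf⟩ := h
    dsimp only at hS hf ⊢
    rw [Hafnian.mem_inv] at hf
    unfold wt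
    rw [← prod_filter]
    refine prod_congr ?_ fun x _ => rfl
    ext x
    simp only [mem_filter, mem_univ, true_and]
    constructor
    · exact fun h => h.2
    · intro h
      refine ⟨?_, h⟩
      by_contra hx
      rw [hf.2 x hx] at h
      exact lt_irrefl _ h

theorem gadMF_symm {n : ℕ} {B : ℕ → ℕ → ℕ} (hB : ∀ x y, B x y = B y x) (x y : ℕ) :
    gadMF n B x y = gadMF n B y x := by
  unfold gadMF
  rw [hB x y]
  congr 1
  · apply propext; tauto
  congr 1
  apply propext; tauto

/-- The hafnian of the matrix with dummies. -/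
theorem HN_gadMF {n : ℕ} {B : ℕ → ℕ → ℕ} (hB : ∀ x y, B x y = B y x) (m : ℕ) :
    HN (n + m) (gadMF n B) =
      m ! * ∑ S : Finset (Fin n) with S.card + m = n, H (fun a b : Fin n => B a b) S := by
  classical
  set W : Fin (n + m) → Fin (n + m) → ℕ := fun a b => gadMF n B a b with hW
  have hWs : ∀ a b, W a b = W b a := fun a b => gadMF_symm hB a b
  let ι : Fin n ↪ Fin (n + m) := Fin.castAddEmb m
  have hι : ∀ a : Fin n, ((ι a : Fin (n + m)) : ℕ) = a := fun a => rfl
  set P : Finset (Fin (n + m)) := univ.map ι with hP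
  set C : Finset (Fin (n + m)) := univ.map (Fin.natAddEmb n) with hC
  have memP : ∀ x : Fin (n + m), x ∈ P ↔ (x : ℕ) < n := by
    intro x
    rw [hP, mem_map]
    constructor
    · rintro ⟨a, -, rfl⟩
      exact a.2
    · intro h
      exact ⟨⟨x, h⟩, mem_univ _, Fin.ext rfl⟩
  have memC : ∀ x : Fin (n + m), x ∈ C ↔ n ≤ (x : ℕ) := by
    intro x
    rw [hC, mem_map]
    constructor
    · rintro ⟨a, -, rfl⟩
      exact Nat.le_add_right _ _
    · intro h
      have := x.2
      exact ⟨⟨x - n, by omega⟩, mem_univ _, Fin.ext (show n + (x - n) = (x : ℕ) by omega)⟩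
  have hPC : (univ : Finset (Fin (n + m))) = P ∪ C := by
    ext x
    rw [mem_union, memP, memC]
    simp only [mem_univ, true_iff]
    omega
  have hd : Disjoint P C := by
    rw [disjoint_left]
    intro x hx hx'
    rw [memP] at hx
    rw [memC] at hx'
    omega
  have hcardC : C.card = m := by rw [hC, card_map, card_univ, Fintype.card_fin]
  have hcardP : P.card = n := by rw [hP, card_map, card_univ, Fintype.card_fin]
  have hfib : ∀ S : Finset (Fin (n + m)), fib (fun _ => ()) S () = S := fun S => by
    simp [fib]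
  clear_value P C
  unfold HN
  show H W univ = _
  rw [hPC, H_cores W hWs (fun _ => ()) C P hd]
  · have e1 : fac (fun _ => ()) C = m ! := by
      unfold fac
      rw [Fintype.prod_unique]
      show (fib (fun _ => ()) C ()).card ! = _
      rw [hfib, hcardC]
    rw [e1]
    congr 1
    refine sum_bij' (fun T _ => univ.filter fun x : Fin n => ι x ∉ T) (fun S _ => P \ S.map ι)
      ?_ ?_ ?_ ?_ ?_
    · intro T hT
      rw [mem_sel] at hT
      have h1 := hT.2 ()
      rw [hfib, hfib, hcardC] at h1
      rw [mem_filter]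
      refine ⟨mem_univ _, ?_⟩
      have h2 : (univ.filter fun x : Fin n => ι x ∉ T).map ι = P \ T := by
        ext x
        rw [mem_map, mem_sdiff]
        constructor
        · rintro ⟨a, ha, rfl⟩
          rw [mem_filter] at ha
          exact ⟨hP ▸ mem_map_of_mem _ (mem_univ _), ha.2⟩
        · rintro ⟨hx, hx'⟩
          rw [hP, mem_map] at hx
          obtain ⟨a, -, rfl⟩ := hx
          exact ⟨a, by rw [mem_filter]; exact ⟨mem_univ _, hx'⟩, rfl⟩
      have h3 := congrArg card h2
      rw [card_map, card_sdiff_of_subset hT.1, hcardP, h1] at h3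
      have h4 := card_le_card hT.1
      omega
    · intro S hS
      rw [mem_filter] at hS
      rw [mem_sel]
      refine ⟨sdiff_subset, fun i => ?_⟩
      rw [hfib, hfib, hcardC, card_sdiff_of_subset (hP ▸ map_subset_map.2 (subset_univ _)), hcardP,
        card_map]
      omega
    · intro T hT
      rw [mem_sel] at hT
      ext x
      rw [mem_sdiff, mem_map]
      constructor
      · rintro ⟨h1, h2⟩
        by_contra h
        rw [hP, mem_map] at h1
        obtain ⟨a, -, rfl⟩ := h1
        exact h2 ⟨a, by rw [mem_filter]; exact ⟨mem_univ _, h⟩, rfl⟩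
      · intro h
        refine ⟨hT.1 h, ?_⟩
        rintro ⟨a, ha, rfl⟩
        rw [mem_filter] at ha
        exact ha.2 h
    · intro S hS
      ext x
      rw [mem_filter, mem_sdiff, mem_map]
      constructor
      · rintro ⟨-, h⟩
        by_contra hx
        refine h ⟨hP ▸ mem_map_of_mem _ (mem_univ _), ?_⟩
        rintro ⟨a, ha, hax⟩
        exact hx (ι.injective hax ▸ ha)
      · intro h
        refine ⟨mem_univ _, ?_⟩
        rintro ⟨-, h'⟩
        exact h' ⟨x, h, rfl⟩
    · intro T hT
      rw [mem_sel] at hT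
      have h2 : P \ T = (univ.filter fun x : Fin n => ι x ∉ T).map ι := by
        ext x
        rw [mem_map, mem_sdiff]
        constructor
        · rintro ⟨hx, hx'⟩
          rw [hP, mem_map] at hx
          obtain ⟨a, -, rfl⟩ := hx
          exact ⟨a, by rw [mem_filter]; exact ⟨mem_univ _, hx'⟩, rfl⟩
        · rintro ⟨a, ha, rfl⟩
          rw [mem_filter] at ha
          exact ⟨hP ▸ mem_map_of_mem _ (mem_univ _), ha.2⟩
      rw [h2, H_map ι W hWs]
      refine H_congr fun a _ b _ _ => ?_
      show gadMF n B a b = B a b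
      unfold gadMF
      rw [if_pos ⟨a.2, b.2⟩]
  · intro j hj p hp
    rw [memC] at hj
    rw [memP] at hp
    rw [if_pos rfl]
    show gadMF n B j p = 1
    unfold gadMF
    rw [if_neg (by omega), if_pos (by omega)]
  · intro j hj p hp _
    rw [memC] at hj hp
    show gadMF n B j p = 0
    unfold gadMF
    rw [if_neg (by omega), if_neg (by omega)]

/-- **The hafnian for matchings with `k` edges.** -/
theorem c2 : C2 := by
  intro Q k hQ
  refine ⟨sym_mk (gadMF_symm hQ), ?_⟩
  unfold HQ gadM
  rw [length_mk, HN_congr (B' := gadMF Q.length (ent Q)) (fun x hx y hy => ent_mk _ hx hy),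
    HN_gadMF hQ, facN_eq]
  congr 1
  rw [← sum_H]
  refine sum_congr ?_ fun S _ => rfl
  ext S
  rw [mem_filter, mem_filter]
  have h := card_le_univ S
  rw [Fintype.card_fin] at h
  unfold dum
  split_ifs <;> simp only [mem_univ, true_and] <;> omega

theorem matchSum_len (Q : List (List ℕ)) {n : ℕ} (h : Q.length = n) (k : ℕ) :
    matchSum (Matrix.of fun i j : Fin Q.length => ent Q i j) k =
      matchSum (Matrix.of fun i j : Fin n => ent Q i j) k := by
  subst h
  rfl

theorem matchSum_eq_zero {R : Type*} [CommSemiring R] {n : ℕ} (A : Matrix (Fin n) (Fin n) R)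
    {k : ℕ} (h : n < k) : matchSum A k = 0 := by
  unfold matchSum
  refine sum_eq_zero fun f hf => ?_
  rw [mem_filter] at hf
  have h1 := card_le_univ (univ.filter fun x => x < f x)
  rw [Fintype.card_fin, hf.2.2] at h1
  omega

theorem matchSum_scale {n : ℕ} (D : ℕ) (M : Matrix (Fin n) (Fin n) ℕ)
    (A : Matrix (Fin n) (Fin n) ℚ≥0) (h : ∀ i j, ((M i j : ℕ) : ℚ≥0) = D * A i j) (k : ℕ) :
    ((matchSum M k : ℕ) : ℚ≥0) = (D : ℚ≥0) ^ k * matchSum A k := by
  unfold matchSum
  rw [Nat.cast_sum, mul_sum]
  refine sum_congr rfl fun f hf => ?_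
  rw [mem_filter] at hf
  rw [Nat.cast_prod, prod_congr rfl fun x _ => h x (f x), prod_mul_distrib, prod_const, hf.2.2]

/-- **Rational weights.** -/
theorem c3b (n : ℕ) (A : Matrix (Fin n) (Fin n) ℚ≥0) (hA : A.IsSymm) (k : ℕ) :
    ((HQ (gadM (intM (matL A)) k) : ℕ) : ℚ≥0) =
      ((dn (matL A) ^ Min.min k n * facN (dum n k) : ℕ) : ℚ≥0) * matchSum A k := by
  rw [(c2 _ k (sym_intM A hA)).2, matchSum_len _ (length_intM A), length_intM]
  push_cast
  rw [matchSum_scale (dn (matL A)) (Matrix.of fun i j : Fin n => ent (intM (matL A)) i j) A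
    (fun i j => ent_intM_cast A i j)]
  rcases le_or_gt k n with h | h
  · rw [min_eq_left h]
    ring
  · rw [matchSum_eq_zero A h]
    simp

end Vale.Agent.P308.Deg
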