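import Mathlib.Combinatorics.SimpleGraph.AdjMatrix
import Vale.Agent.P308.H655.Defs

/-!
# Adjacency matrices: the sums are numbers of subgraphs and of matchings
-/

set_option linter.all false

namespace Vale.Agent.P308.Deg

open Vale.Agent.P308.Hafnian Finset Function

variable {n : ℕ}

open scoped Classical in
/-- The number of spanning subgraphs with given degrees. -/
theorem degSum_adj (G : SimpleGraph (Fin n)) (t : Fin n → ℕ) :
    degSum (G.adjMatrix ℚ≥0) t =
      (Nat.card {H : SimpleGraph (Fin n) // H ≤ G ∧ ∀ v, H.degree v = t v} : ℚ≥0) := by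
  unfold degSum
  have h1 : ∀ H : SimpleGraph (Fin n), (∏ p : Fin n × Fin n with p.1 < p.2 ∧ H.Adj p.1 p.2,
      (G.adjMatrix ℚ≥0) p.1 p.2) = if H ≤ G then 1 else 0 := by
    intro H
    split_ifs with h
    · refine prod_eq_one fun p hp => ?_
      rw [mem_filter] at hp
      rw [SimpleGraph.adjMatrix_apply, if_pos (h hp.2.2)]
    · rw [SimpleGraph.le_iff_adj] at h
      push Not at h
      obtain ⟨x, y, h1, h2⟩ := h
      rcases lt_or_gt_of_ne h1.ne with hlt | hlt
      · refine prod_eq_zero (i := (x, y)) (by simp [hlt, h1]) ?_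
        rw [SimpleGraph.adjMatrix_apply, if_neg h2]
      · refine prod_eq_zero (i := (y, x)) (by simp [hlt, h1.symm]) ?_
        rw [SimpleGraph.adjMatrix_apply, if_neg fun h => h2 h.symm]
  rw [sum_congr rfl fun H _ => h1 H, ← sum_filter, filter_filter, sum_const, nsmul_eq_mul,
    mul_one, Nat.card_eq_fintype_card, Fintype.card_subtype]
  congr 2
  ext H
  simp only [mem_filter, mem_univ, true_and]
  tauto

theorem ncard_edgeSet {G : SimpleGraph (Fin n)} (M : G.Subgraph) (f : Fin n → Fin n)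
    (hf : ∀ x, f (f x) = x) (h : ∀ x y, M.Adj x y ↔ f x = y ∧ x ≠ y) :
    M.edgeSet.ncard = (univ.filter fun x => x < f x).card := by
  have h1 : M.edgeSet = (fun x => s(x, f x)) ''
      ((univ.filter fun x => x < f x : Finset (Fin n)) : Set (Fin n)) := by
    ext e
    induction e with
    | _ x y =>
      rw [SimpleGraph.Subgraph.mem_edgeSet, h, Set.mem_image]
      constructor
      · rintro ⟨h1, h2⟩
        subst h1
        rcases lt_or_gt_of_ne h2 with hlt | hlt
        · exact ⟨x, by simpa using hlt, rfl⟩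
        · refine ⟨f x, by simpa [hf] using hlt, ?_⟩
          show s(f x, f (f x)) = _
          rw [hf, Sym2.eq_swap]
      · rintro ⟨z, hz, he⟩
        simp only [coe_filter, mem_univ, true_and, Set.mem_setOf_eq] at hz
        rw [Sym2.eq_iff] at he
        rcases he with ⟨h1, h2⟩ | ⟨h1, h2⟩
        · subst h1
          exact ⟨h2, by rw [← h2]; exact hz.ne⟩
        · subst h1
          rw [← h2]
          exact ⟨hf _, hz.ne'⟩
  rw [h1, Set.ncard_image_of_injOn, Set.ncard_coe_finset]
  intro x hx y hy hxy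
  simp only [coe_filter, mem_univ, true_and, Set.mem_setOf_eq] at hx hy
  rcases Sym2.eq_iff.1 hxy with ⟨h1, -⟩ | ⟨h1, h2⟩
  · exact h1
  · rw [← h1] at hy
    rw [h2] at hx
    exact absurd hy (not_lt.2 hx.le)

/-- the matching of an involution -/
def toM (G : SimpleGraph (Fin n)) (f : Fin n → Fin n) (hf : ∀ x, f (f x) = x)
    (hG : ∀ x, x < f x → G.Adj x (f x)) : G.Subgraph where
  verts := {x | f x ≠ x}
  Adj x y := f x = y ∧ x ≠ y
  adj_sub := by
    rintro x y ⟨rfl, h⟩
    rcases lt_or_gt_of_ne h with hlt | hlt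
    · exact hG x hlt
    · have := hG (f x) (by rwa [hf])
      rw [hf] at this
      exact this.symm
  edge_vert := by
    rintro x y ⟨rfl, h⟩
    exact h.symm
  symm := ⟨by
    rintro x y ⟨rfl, h⟩
    exact ⟨hf x, h.symm⟩⟩

open scoped Classical in
/-- The number of matchings with `k` edges. -/
theorem matchSum_adj (G : SimpleGraph (Fin n)) (k : ℕ) :
    matchSum (G.adjMatrix ℚ≥0) k =
      (Nat.card {M : G.Subgraph // M.IsMatching ∧ M.edgeSet.ncard = k} : ℚ≥0) := by
  have h1 : ∀ f : Fin n → Fin n, (∏ x with x < f x, (G.adjMatrix ℚ≥0) x (f x)) =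
      if ∀ x, x < f x → G.Adj x (f x) then 1 else 0 := by
    intro f
    split_ifs with h
    · refine prod_eq_one fun p hp => ?_
      rw [mem_filter] at hp
      rw [SimpleGraph.adjMatrix_apply, if_pos (h p hp.2)]
    · push Not at h
      obtain ⟨x, h1, h2⟩ := h
      refine prod_eq_zero (i := x) (by simp [h1]) ?_
      rw [SimpleGraph.adjMatrix_apply, if_neg h2]
  have h2 : matchSum (G.adjMatrix ℚ≥0) k = ((univ.filter fun f : Fin n → Fin n =>
      ((∀ x, f (f x) = x) ∧ (univ.filter fun x => x < f x).card = k) ∧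
        ∀ x, x < f x → G.Adj x (f x)).card : ℚ≥0) := by
    unfold matchSum
    rw [sum_congr rfl fun f _ => h1 f, ← sum_filter, filter_filter, sum_const, nsmul_eq_mul,
      mul_one]
  rw [h2]
  congr 1
  rw [← Fintype.card_subtype, ← Nat.card_eq_fintype_card]
  refine Nat.card_eq_of_bijective (fun f => ⟨toM G f.1 f.2.1.1 f.2.2, ?_, ?_⟩) ⟨?_, ?_⟩
  · intro x hx
    exact ⟨f.1 x, ⟨rfl, Ne.symm hx⟩, fun y hy => hy.1.symm⟩
  · rw [ncard_edgeSet _ f.1 f.2.1.1 fun x y => Iff.rfl]
    exact f.2.1.2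
  · rintro ⟨f, hf⟩ ⟨f', hf'⟩ h
    apply Subtype.ext
    have h3 : toM G f hf.1.1 hf.2 = toM G f' hf'.1.1 hf'.2 := congrArg Subtype.val h
    have h4 : ∀ x y, (f x = y ∧ x ≠ y) ↔ (f' x = y ∧ x ≠ y) := fun x y => by
      have := congrArg (fun M : G.Subgraph => M.Adj x y) h3
      exact Iff.of_eq this
    funext x
    by_cases hx : x = f x
    · by_cases hx' : x = f' x
      · exact hx.symm.trans hx'
      · exact ((h4 x (f' x)).2 ⟨rfl, hx'⟩).1
    · exact ((h4 x (f x)).1 ⟨rfl, hx⟩).1.symm
  · rintro ⟨M, hM, hk⟩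
    let f : Fin n → Fin n := fun x => if h : x ∈ M.verts then (hM h).choose else x
    have f1 : ∀ x y, M.Adj x y ↔ f x = y ∧ x ≠ y := by
      intro x y
      by_cases hx : x ∈ M.verts
      · have hfx : f x = (hM hx).choose := dif_pos hx
        have h3 := (hM hx).choose_spec
        rw [← hfx] at h3
        constructor
        · intro h
          exact ⟨(h3.2 y h).symm, h.ne⟩
        · rintro ⟨rfl, -⟩
          exact h3.1
      · have hfx : f x = x := dif_neg hx
        constructor
        · intro h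
          exact absurd (M.edge_vert h) hx
        · rintro ⟨h, h'⟩
          exact absurd (hfx.symm.trans h) h'
    have f2 : ∀ x, f (f x) = x := by
      intro x
      by_cases hx : x = f x
      · rw [← hx, ← hx]
      · exact ((f1 _ _).1 ((f1 x (f x)).2 ⟨rfl, hx⟩).symm).1
    have f3 : ∀ x, x < f x → G.Adj x (f x) := fun x hx => ((f1 x (f x)).2 ⟨rfl, hx.ne⟩).adj_sub
    have f4 : (univ.filter fun x => x < f x).card = k := by
      rw [← hk, ncard_edgeSet M f f2 f1]
    refine ⟨⟨f, ⟨f2, f4⟩, f3⟩, ?_⟩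
    apply Subtype.ext
    refine SimpleGraph.Subgraph.ext ?_ ?_
    · ext x
      show f x ≠ x ↔ x ∈ M.verts
      constructor
      · intro h
        exact M.edge_vert ((f1 x (f x)).2 ⟨rfl, h.symm⟩)
      · intro h h'
        obtain ⟨y, hy, -⟩ := hM h
        obtain ⟨a, b⟩ := (f1 x y).1 hy
        exact b (h'.symm.trans a)
    · funext x y
      exact propext (f1 x y).symm

/-- the graph of an involution without fixed points -/
def ofInv (f : Fin n → Fin n) (hf : ∀ x, f (f x) = x ∧ f x ≠ x) : SimpleGraph (Fin n) where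
  Adj x y := f x = y
  symm := ⟨fun x y h => by rw [← h]; exact (hf x).1⟩
  loopless := ⟨fun x h => (hf x).2 h⟩

theorem ofInv_adj (f : Fin n → Fin n) (hf : ∀ x, f (f x) = x ∧ f x ≠ x) (x y : Fin n) :
    (ofInv f hf).Adj x y ↔ f x = y := Iff.rfl

open scoped Classical in
/-- The hafnian is the case of degrees `1`. -/
theorem degSum_one (A : Matrix (Fin n) (Fin n) ℚ≥0) : degSum A (fun _ => 1) = haf A := by
  unfold degSum haf
  symm
  refine sum_bij (fun f hf => ofInv f (mem_filter.1 hf).2) ?_ ?_ ?_ ?_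
  · intro f hf
    have hf' := (mem_filter.1 hf).2
    rw [mem_filter]
    refine ⟨mem_univ _, fun v => ?_⟩
    rw [SimpleGraph.degree_eq_one_iff_existsUnique_adj]
    exact ⟨f v, (ofInv_adj f hf' _ _).2 rfl, fun y hy => ((ofInv_adj f hf' _ _).1 hy).symm⟩
  · intro f hf f' hf' h
    funext x
    have h1 : (ofInv f' (mem_filter.1 hf').2).Adj x (f x) := by
      rw [← h]
      exact (ofInv_adj f (mem_filter.1 hf).2 _ _).2 rfl
    exact ((ofInv_adj _ _ _ _).1 h1).symm
  · intro H hH
    rw [mem_filter] at hH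
    have h1 : ∀ v, ∃! w, H.Adj v w := fun v =>
      (SimpleGraph.degree_eq_one_iff_existsUnique_adj).1 (hH.2 v)
    choose f hf using fun v => (h1 v).exists
    have hu : ∀ v w, H.Adj v w → f v = w := fun v w h => (h1 v).unique (hf v) h
    have hff : ∀ x, f (f x) = x ∧ f x ≠ x := fun x => ⟨hu _ _ (hf x).symm, (hf x).ne'⟩
    refine ⟨f, by simpa using hff, ?_⟩
    ext x y
    rw [ofInv_adj]
    exact ⟨fun h => h ▸ hf x, hu x y⟩
  · intro f hf
    have hf' := (mem_filter.1 hf).2
    refine prod_bij (fun x _ => (x, f x)) ?_ ?_ ?_ ?_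
    · intro x hx
      rw [mem_filter] at hx ⊢
      exact ⟨mem_univ _, hx.2, (ofInv_adj f hf' _ _).2 rfl⟩
    · intro x _ y _ h
      exact (Prod.ext_iff.1 h).1
    · rintro ⟨x, y⟩ h
      rw [mem_filter] at h
      obtain ⟨-, h1, h2⟩ := h
      have h3 : f x = y := (ofInv_adj f hf' _ _).1 h2
      subst h3
      exact ⟨x, by rw [mem_filter]; exact ⟨mem_univ _, h1⟩, rfl⟩
    · intro x hx
      rfl

end Vale.Agent.P308.Deg
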