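import Vale.Agent.P308.H581.Haf

/-!
# Hafnians of matrices with core vertices, which are only adjacent to the vertices with the
same owner; hafnians of matrices whose index set consists of the ordered pairs of vertices
-/

set_option linter.all false

namespace Vale.Agent.P308.Deg

open Finset Function Vale.Agent.P308.Hafnian

open scoped Nat

section General

variable {V : Type*} [Fintype V] [LinearOrder V] {R : Type*} [CommSemiring R]
  {ι : Type*} [Fintype ι] [DecidableEq ι]

/-- the elements of `S` with owner `i` -/
def fib (own : V → ι) (S : Finset V) (i : ι) : Finset V := S.filter fun x => own x = i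

/-- the subsets of `P` which have as many elements of every owner as `C` -/
def sel (own : V → ι) (P C : Finset V) : Finset (Finset V) :=
  P.powerset.filter fun T => ∀ i, (fib own T i).card = (fib own C i).card

theorem mem_sel {own : V → ι} {P C T : Finset V} :
    T ∈ sel own P C ↔ T ⊆ P ∧ ∀ i, (fib own T i).card = (fib own C i).card := by
  simp [sel]

theorem card_fib_insert (own : V → ι) {S : Finset V} {p : V} (hp : p ∉ S) (i : ι) :
    (fib own (insert p S) i).card = (fib own S i).card + if own p = i then 1 else 0 := by
  unfold fib
  rw [filter_insert]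
  split_ifs with h
  · rw [card_insert_of_notMem (by simp [hp])]
  · rfl

theorem fib_empty (own : V → ι) (i : ι) : fib own ∅ i = ∅ := by simp [fib]

theorem sel_empty (own : V → ι) (P : Finset V) : sel own P ∅ = {∅} := by
  ext T
  rw [mem_sel, mem_singleton]
  constructor
  · rintro ⟨-, h⟩
    rw [eq_empty_iff_forall_notMem]
    intro x hx
    have h1 := h (own x)
    rw [fib_empty, card_empty, card_eq_zero] at h1
    have : x ∈ fib own T (own x) := by simp [fib, hx]
    rw [h1] at this
    simp at this
  · rintro rfl
    exact ⟨empty_subset _, fun i => rfl⟩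

/-- number of the assignments of the cores -/
def fac (own : V → ι) (C : Finset V) : ℕ := ∏ i, (fib own C i).card !

theorem fac_insert (own : V → ι) {C : Finset V} {j : V} (hj : j ∉ C) :
    fac own (insert j C) = (fib own (insert j C) (own j)).card * fac own C := by
  unfold fac
  rw [← mul_prod_erase univ _ (mem_univ (own j)), ← mul_prod_erase univ _ (mem_univ (own j)),
    ← mul_assoc]
  congr 1
  · rw [card_fib_insert own hj, if_pos rfl, Nat.factorial_succ]
  · refine prod_congr rfl fun i hi => ?_
    rw [card_fib_insert own hj, if_neg (ne_of_mem_erase hi).symm, add_zero]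

/-- **Elimination of the cores.** -/
theorem H_cores (B : V → V → R) (hB : ∀ a b, B a b = B b a) (own : V → ι) (C : Finset V) :
    ∀ P : Finset V, Disjoint P C →
      (∀ j ∈ C, ∀ p ∈ P, B j p = if own j = own p then 1 else 0) →
      (∀ j ∈ C, ∀ j' ∈ C, j ≠ j' → B j j' = 0) →
      H B (P ∪ C) = (fac own C : R) * ∑ T ∈ sel own P C, H B (P \ T) := by
  classical
  induction C using Finset.induction_on with
  | empty =>
    intro P _ _ _
    rw [union_empty, sel_empty, sum_singleton, sdiff_empty]
    simp [fac, fib_empty]
  | insert j C hj ih =>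
    intro P hd h1 h2
    have hjP : j ∉ P := fun h => (disjoint_left.1 hd h) (mem_insert_self _ _)
    have hd' : Disjoint P C := hd.mono_right (subset_insert _ _)
    have e0 : (P ∪ insert j C).erase j = P ∪ C := by
      rw [union_insert, erase_insert]
      simp [hjP, hj]
    have e1 : H B (P ∪ insert j C) = ∑ p ∈ fib own P (own j), H B ((P ∪ C).erase p) := by
      rw [H_expand B hB (x := j) (by simp), e0, sum_union hd',
        sum_eq_zero (s := C) (fun z hz => by
          rw [h2 j (mem_insert_self _ _) z (mem_insert_of_mem hz) (fun h => hj (h ▸ hz)),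
            zero_mul]), add_zero, fib, sum_filter]
      refine sum_congr rfl fun p hp => ?_
      rw [h1 j (mem_insert_self _ _) p hp]
      by_cases h : own j = own p
      · rw [if_pos h, if_pos h.symm, one_mul]
      · rw [if_neg h, if_neg (fun h' => h h'.symm), zero_mul]
    have e2 : ∀ p ∈ fib own P (own j), H B ((P ∪ C).erase p) =
        (fac own C : R) * ∑ T ∈ sel own (P.erase p) C, H B (P.erase p \ T) := by
      intro p hp
      rw [fib, mem_filter] at hp
      have hpC : p ∉ C := disjoint_left.1 hd' hp.1
      have : (P ∪ C).erase p = P.erase p ∪ C := by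
        rw [erase_union_distrib, erase_eq_of_notMem hpC]
      rw [this]
      refine ih (P.erase p) (hd'.mono_left (erase_subset _ _)) ?_ ?_
      · intro j' hj' q hq
        exact h1 j' (mem_insert_of_mem hj') q (mem_of_mem_erase hq)
      · intro j' hj' j'' hj'' hne
        exact h2 j' (mem_insert_of_mem hj') j'' (mem_insert_of_mem hj'') hne
    rw [e1, sum_congr rfl e2, ← mul_sum, fac_insert own hj]
    push_cast
    rw [mul_comm ((fib own (insert j C) (own j)).card : R), mul_assoc]
    congr 1
    have e3 : ((fib own (insert j C) (own j)).card : R) *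
        ∑ T ∈ sel own P (insert j C), H B (P \ T) =
        ∑ T ∈ sel own P (insert j C), ∑ p ∈ fib own T (own j), H B (P \ T) := by
      rw [mul_sum]
      refine sum_congr rfl fun T hT => ?_
      rw [sum_const, nsmul_eq_mul, (mem_sel.1 hT).2 (own j)]
    rw [e3, sum_sigma', sum_sigma']
    refine sum_bij' (fun a _ => ⟨insert a.1 a.2, a.1⟩) (fun a _ => ⟨a.2, a.1.erase a.2⟩)
      ?_ ?_ ?_ ?_ ?_
    · rintro ⟨p, T⟩ h
      rw [mem_sigma] at h
      obtain ⟨hp, hT⟩ := h
      dsimp only at hp hT ⊢
      rw [fib, mem_filter] at hp
      rw [mem_sel] at hT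
      have hpT : p ∉ T := fun h => (mem_erase.1 (hT.1 h)).1 rfl
      rw [mem_sigma]
      refine ⟨mem_sel.2 ⟨insert_subset hp.1 (hT.1.trans (erase_subset _ _)), fun i => ?_⟩, ?_⟩
      · rw [card_fib_insert own hpT, card_fib_insert own hj, hT.2 i, hp.2]
      · dsimp only
        rw [fib, mem_filter]
        exact ⟨mem_insert_self _ _, hp.2⟩
    · rintro ⟨T, p⟩ h
      rw [mem_sigma] at h
      obtain ⟨hT, hp⟩ := h
      dsimp only at hp hT ⊢
      rw [fib, mem_filter] at hp
      rw [mem_sel] at hT
      rw [mem_sigma]
      refine ⟨?_, mem_sel.2 ⟨?_, fun i => ?_⟩⟩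
      · dsimp only
        rw [fib, mem_filter]
        exact ⟨hT.1 hp.1, hp.2⟩
      · intro x hx
        rw [mem_erase] at hx ⊢
        exact ⟨hx.1, hT.1 hx.2⟩
      · have h3 := card_fib_insert own (notMem_erase p T) i
        rw [insert_erase hp.1, hT.2 i, card_fib_insert own hj, hp.2] at h3
        show (fib own (T.erase p) i).card = (fib own C i).card
        omega
    · rintro ⟨p, T⟩ h
      rw [mem_sigma] at h
      obtain ⟨hp, hT⟩ := h
      dsimp only at hp hT ⊢
      rw [mem_sel] at hT
      have hpT : p ∉ T := fun h => (mem_erase.1 (hT.1 h)).1 rfl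
      rw [erase_insert hpT]
    · rintro ⟨T, p⟩ h
      rw [mem_sigma] at h
      obtain ⟨hT, hp⟩ := h
      dsimp only at hp hT ⊢
      rw [fib, mem_filter] at hp
      rw [insert_erase hp.1]
    · rintro ⟨p, T⟩ h
      dsimp only
      congr 1
      ext x
      simp only [mem_sdiff, mem_erase, mem_insert]
      tauto

/-- The elements of `Q` are ordered pairs (`r x`, `c x`), an entry is nonzero only for transposed
pairs. -/
theorem H_ports (r c : V → ℕ) (A : ℕ → ℕ → R) (hA : ∀ u v, A u v = A v u) (B : V → V → R)
    (hB : ∀ a b, B a b = B b a) (n : ℕ) :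
    ∀ Q : Finset V, Q.card = n → (∀ x ∈ Q, ∀ y ∈ Q, r x = r y → c x = c y → x = y) →
      (∀ x ∈ Q, ∀ y ∈ Q, x ≠ y → B x y = if r x = c y ∧ c x = r y ∧ r x ≠ c x then A (r x) (c x) else 0) →
      H B Q = if (∀ x ∈ Q, r x ≠ c x ∧ ∃ y ∈ Q, r y = c x ∧ c y = r x) then
        ∏ x ∈ Q with r x < c x, A (r x) (c x) else 0 := by
  classical
  induction n using Nat.strong_induction_on with
  | _ n ih =>
    intro Q hn hinj h1
    rcases Q.eq_empty_or_nonempty with h | ⟨x, hx⟩
    · subst h
      rw [H_empty, if_pos (by simp)]
      simp
    · by_cases hc : r x ≠ c x ∧ ∃ y ∈ Q, r y = c x ∧ c y = r x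
      · obtain ⟨hrc, y, hy, hy1, hy2⟩ := hc
        have hyx : y ≠ x := by
          rintro rfl
          exact hrc hy1
        have e1 : H B Q = A (r x) (c x) * H B ((Q.erase x).erase y) := by
          rw [H_expand B hB hx, sum_eq_single_of_mem y (mem_erase.2 ⟨hyx, hy⟩)]
          · rw [h1 x hx y hy hyx.symm, if_pos ⟨hy2.symm, hy1.symm, hrc⟩]
          · intro z hz hzy
            rw [mem_erase] at hz
            rw [h1 x hx z hz.2 hz.1.symm, if_neg, zero_mul]
            rintro ⟨a1, a2, -⟩
            exact hzy (hinj z hz.2 y hy (by rw [hy1, a2]) (by rw [hy2, a1]))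
        have hsub : ∀ z, z ∈ (Q.erase x).erase y ↔ z ≠ y ∧ z ≠ x ∧ z ∈ Q := by
          intro z
          rw [mem_erase, mem_erase]
        have hcard : ((Q.erase x).erase y).card < n := by
          rw [← hn]
          exact card_lt_card ((erase_ssubset (mem_erase.2 ⟨hyx, hy⟩)).trans (erase_ssubset hx))
        rw [e1, ih _ hcard _ rfl (fun a ha b hb => hinj a ((hsub a).1 ha).2.2 b ((hsub b).1 hb).2.2)
          (fun a ha b hb => h1 a ((hsub a).1 ha).2.2 b ((hsub b).1 hb).2.2)]
        have hcond : (∀ z ∈ (Q.erase x).erase y, r z ≠ c z ∧ ∃ w ∈ (Q.erase x).erase y,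
            r w = c z ∧ c w = r z) ↔ ∀ z ∈ Q, r z ≠ c z ∧ ∃ w ∈ Q, r w = c z ∧ c w = r z := by
          constructor
          · intro h z hz
            by_cases hzx : z = x
            · subst hzx
              exact ⟨hrc, y, hy, hy1, hy2⟩
            by_cases hzy : z = y
            · subst hzy
              exact ⟨by rw [hy1, hy2]; exact hrc.symm, x, hx, hy2.symm, hy1.symm⟩
            obtain ⟨a1, w, hw, a2⟩ := h z ((hsub z).2 ⟨hzy, hzx, hz⟩)
            exact ⟨a1, w, ((hsub w).1 hw).2.2, a2⟩
          · intro h z hz
            rw [hsub] at hz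
            obtain ⟨a1, w, hw, a2, a3⟩ := h z hz.2.2
            refine ⟨a1, w, (hsub w).2 ⟨?_, ?_, hw⟩, a2, a3⟩
            · rintro rfl
              exact hz.2.1 (hinj z hz.2.2 x hx (by rw [← a3, hy2]) (by rw [← a2, hy1]))
            · rintro rfl
              exact hz.1 (hinj z hz.2.2 y hy (by rw [← a3, hy1]) (by rw [← a2, hy2]))
        rw [if_congr hcond rfl rfl]
        split_ifs with h
        · have e2 : ∀ z, r z < c z → (z ∈ Q ↔ z = x ∨ z = y ∨ z ∈ (Q.erase x).erase y) := by
            intro z _
            rw [hsub]
            constructor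
            · intro h
              tauto
            · rintro (h | h | h)
              · exact h ▸ hx
              · exact h ▸ hy
              · exact h.2.2
          rcases lt_or_gt_of_ne hrc with hlt | hlt
          · have e3 : Q.filter (fun z => r z < c z) =
                insert x (((Q.erase x).erase y).filter fun z => r z < c z) := by
              ext z
              simp only [mem_filter, mem_insert]
              constructor
              · rintro ⟨hz, hz'⟩
                rcases (e2 z hz').1 hz with h | h | h
                · exact Or.inl h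
                · subst h
                  rw [hy1, hy2] at hz'
                  omega
                · exact Or.inr ⟨h, hz'⟩
              · rintro (h | ⟨h, h'⟩)
                · subst h
                  exact ⟨hx, hlt⟩
                · exact ⟨((hsub z).1 h).2.2, h'⟩
            rw [e3, prod_insert (by simp)]
          · have e3 : Q.filter (fun z => r z < c z) =
                insert y (((Q.erase x).erase y).filter fun z => r z < c z) := by
              ext z
              simp only [mem_filter, mem_insert]
              constructor
              · rintro ⟨hz, hz'⟩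
                rcases (e2 z hz').1 hz with h | h | h
                · subst h
                  omega
                · exact Or.inl h
                · exact Or.inr ⟨h, hz'⟩
              · rintro (h | ⟨h, h'⟩)
                · subst h
                  exact ⟨hy, by rw [hy1, hy2]; exact hlt⟩
                · exact ⟨((hsub z).1 h).2.2, h'⟩
            rw [e3, prod_insert (by simp), hy1, hy2, hA]
        · rw [mul_zero]
      · have e1 : H B Q = 0 := by
          rw [H_expand B hB hx]
          refine sum_eq_zero fun z hz => ?_
          rw [mem_erase] at hz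
          rw [h1 x hx z hz.2 hz.1.symm, if_neg, zero_mul]
          rintro ⟨a1, a2, a3⟩
          exact hc ⟨a3, z, hz.2, a2.symm, a1.symm⟩
        rw [e1, if_neg]
        intro h
        exact hc (h x hx)

end General

end Vale.Agent.P308.Deg
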