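import Vale.Agent.P308.H581.Main
import Vale.Agent.P308.H655.Defs

/-!
# Approximation schemes from hafnians of integer matrices which are computable in polynomial time
-/

set_option linter.all false

namespace Vale.Agent.P308.Deg

open Vale.Agent.Lib.PolyTime Vale.Agent.P308.Alg Vale.Agent.P308.Hafnian Finset Function

section Gen

variable {α : Type*} [Enc α]

/-- the number of random bits which are used -/
def needG (Qf : α → List (List ℕ)) (d : ℕ) (x : α × (Un × Un)) : ℕ :=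
  ((red (Qf x.1)).length + x.2.1.v + x.2.2.v + 2) ^ d

/-- the algorithm -/
def algG (alg : Input × Raw → ℕ) (Qf : α → List (List ℕ)) (cf : α → ℕ) (d : ℕ)
    (x : (α × (Un × Un)) × Raw) : ℕ × ℕ :=
  (alg ((rowsW (red (Qf x.1.1)), x.1.2), ⟨x.2.w.take (needG Qf d x.1)⟩), cf x.1.1)

variable {Qf : α → List (List ℕ)} {cf : α → ℕ}

theorem PT_redG (hQ : PT ∅ Qf) : PT ∅ (fun x : α × (Un × Un) => red (Qf x.1)) :=
  PT_red (hQ.comp PT.fst')

theorem PT_needG (hQ : PT ∅ Qf) (d : ℕ) : PT ∅ (needG Qf d) := by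
  unfold needG
  exact PT.powConst ((((PT_redG hQ).length.add (PT.unVal PT.snd'.fst)).add
    (PT.unVal PT.snd'.snd)).add (PT.const 2)) d

theorem PT_algG {alg : Input × Raw → ℕ} (h : PT ∅ alg) (hQ : PT ∅ Qf) (hc : PT ∅ cf) (d : ℕ) :
    PT ∅ (algG alg Qf cf d) := by
  unfold algG
  exact PT.pair (h.comp (PT.pair (PT.pair (PT_rowsW ((PT_redG hQ).comp PT.fst')) PT.fst'.snd)
    (PT.rawTake PT.snd' ((PT_needG hQ d).comp PT.fst')))) (hc.comp PT.fst'.fst)

/-- **Approximation schemes from hafnians.** -/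
theorem hasFPRAS_of {ι : Type*} (code : ι → List Bool) (val : ι → ℚ≥0) (rep : ι → α)
    (hcode : ∀ x, enc (rep x) = code x) (hQ : PT ∅ Qf) (hc : PT ∅ cf)
    (hsym : ∀ x, Sym (Qf (rep x))) (hpos : ∀ x, 0 < cf (rep x))
    (hval : ∀ x, ((HQ (Qf (rep x)) : ℕ) : ℚ≥0) = (cf (rep x) : ℚ≥0) * val x) :
    HasFPRAS code val := by
  obtain ⟨c2, c3, c4, c5, c6, d, hgood⟩ := PA.alg_good_of 22 _ (PA.roundsGood_of 22 M1_holds)
    (PA.mixedOf_of Lin.gap Rep.rep_statement PA.cStmt (le_refl _))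
  set alg := PA.alg 22 c2 c3 c4 c5 c6 d with halg
  have hPT : PT ∅ alg := PA.PT_alg 22 c2 c3 c4 c5 c6 d
  obtain ⟨g, hg, hg'⟩ := PT_algG hPT hQ hc d
  obtain ⟨M, hM⟩ := exists_tm2_of_polyTimeFun id id g g (polyTimeFun_iff.2 hg) fun _ => rfl
  obtain ⟨k, hk⟩ := PA.poly_le' M.time
  have hb : PBd (fun x : α × (Un × Un) => (red (Qf x.1)).length + x.2.1.v + x.2.2.v + 2) :=
    (((PBd.length (PT_redG hQ)).add ((PT.pbd (A := ∅) (f := fun x : α × (Un × Un) => x.2.1)
      PT.snd'.fst).mono fun a => (esize_un _).ge)).add ((PT.pbd (A := ∅)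
      (f := fun x : α × (Un × Un) => x.2.2) PT.snd'.snd).mono fun a => (esize_un _).ge)).add
      (PBd.const 2)
  obtain ⟨c, hc'⟩ := hb
  have hin : ∀ (x : ι) (e l : ℕ), inputOf (code x) e l =
      enc ((rep x, (⟨e⟩, ⟨l⟩)) : α × (Un × Un)) := by
    intro x e l
    rw [enc_pair, enc_pair, enc_un, enc_un, hcode, inputOf, QP.block_eq, QP.block_eq]
  have key : ∀ (x : ι) (e l : ℕ) (w : List Bool),
      g (QP.block (inputOf (code x) e l) w) =
        QP.block (algG alg Qf cf d ((rep x, (⟨e⟩, ⟨l⟩)), ⟨w⟩)).1.bits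
          (algG alg Qf cf d ((rep x, (⟨e⟩, ⟨l⟩)), ⟨w⟩)).2.bits := by
    intro x e l w
    have h1 := hg' ((rep x, (⟨e⟩, ⟨l⟩)), ⟨w⟩)
    rw [enc_pair, enc_raw, ← hin, ← QP.block_eq] at h1
    rw [h1, QP.block_eq]
    rfl
  refine ⟨g, M, hM, 2 * (c * d), k + k * (2 * (c * d) + 4), ?_⟩
  intro x ε δ hε hε1 hδ hδ1 e l b he hl hb
  have hb2 : 2 ≤ b := by omega
  have hlen : (inputOf (code x) e l).length = 2 * (code x).length + (2 * e + l + 1) + 1 := by
    rw [inputOf, QP.block_eq, QP.block_eq, length_pr, length_pr, List.length_replicate,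
      List.length_replicate]
  have hlen2 : (inputOf (code x) e l).length + 2 ≤ 2 * b := by omega
  constructor
  · intro w hw
    refine hk b _ (2 * (c * d) + 4) hb2 ?_
    rw [QP.block_eq, length_pr, hw]
    have e1 : 4 * b ≤ b ^ 3 := by
      have : b ^ 3 = b * b * b := by ring
      rw [this]
      exact Nat.mul_le_mul_right _ (Nat.mul_le_mul hb2 hb2)
    have e2 : b ^ 3 ≤ b ^ (2 * (c * d) + 3) := Nat.pow_le_pow_right (by omega) (by omega)
    have e3 : b ^ (2 * (c * d)) ≤ b ^ (2 * (c * d) + 3) :=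
      Nat.pow_le_pow_right (by omega) (by omega)
    have e4 : 2 * b ^ (2 * (c * d) + 3) ≤ b ^ (2 * (c * d) + 4) := by
      rw [pow_succ _ (2 * (c * d) + 3), mul_comm]
      exact Nat.mul_le_mul_left _ hb2
    omega
  · have he0 : 0 < e := by
      rw [he]
      exact Nat.ceil_pos.2 (by positivity)
    have her : (0 : ℝ) < e := by exact_mod_cast he0
    have h1 : 1 / (e : ℝ) ≤ ε := by
      have h2 : 1 / ε ≤ e := by
        rw [he]
        exact Nat.le_ceil _
      rw [div_le_iff₀ hε] at h2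
      rw [div_le_iff₀ her]
      linarith only [h2]
    have h2 : ((1 : ℝ) / 2) ^ l ≤ δ := by
      have h3 : Real.logb 2 (1 / δ) ≤ l := by
        rw [hl]
        exact Nat.le_ceil _
      have h4 : 1 / δ ≤ 2 ^ l := by
        have h5 : (1 / δ) = (2 : ℝ) ^ (Real.logb 2 (1 / δ)) := by
          rw [Real.rpow_logb (by norm_num) (by norm_num) (by positivity)]
        rw [h5, ← Real.rpow_natCast]
        exact Real.rpow_le_rpow_of_exponent_le (by norm_num) h3
      rw [one_div, inv_pow, ← one_div, div_le_iff₀ (by positivity)]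
      rw [div_le_iff₀ hδ] at h4
      linarith only [h4]
    set Q := Qf (rep x) with hQd
    have hsymQ : Sym Q := hsym x
    have hsym' : Sym (red Q) := (iter_spec hsymQ (num Q)).1
    have hneed : needG Qf d (rep x, (⟨e⟩, ⟨l⟩)) ≤ b ^ (2 * (c * d)) := by
      have e1 := hc' (rep x, (⟨e⟩, ⟨l⟩))
      have e2 : esize ((rep x, (⟨e⟩, ⟨l⟩)) : α × (Un × Un)) + 2 ≤ 2 * b := by
        have : esize ((rep x, (⟨e⟩, ⟨l⟩)) : α × (Un × Un)) = (inputOf (code x) e l).length := by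
          rw [hin]
          rfl
        omega
      calc needG Qf d (rep x, (⟨e⟩, ⟨l⟩))
          ≤ (pb c (esize ((rep x, (⟨e⟩, ⟨l⟩)) : α × (Un × Un)))) ^ d := Nat.pow_le_pow_left e1 d
        _ = (esize ((rep x, (⟨e⟩, ⟨l⟩)) : α × (Un × Un)) + 2) ^ (c * d) := by
            rw [pb, ← pow_mul]
        _ ≤ (b * b) ^ (c * d) := Nat.pow_le_pow_left
            (e2.trans (Nat.mul_le_mul_right _ hb2)) _
        _ = b ^ (2 * (c * d)) := by
            rw [← pow_two, ← pow_mul]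
    have h3 := hgood (red Q).length (gr (red Q)) e l he0
    rw [rows_gr hsym', numPM_gr hsymQ] at h3
    have h4 := QP.one_sub_prob_le (b ^ (2 * (c * d))) (fun w => ∃ a c : ℕ, 0 < c ∧
            g (QP.block (inputOf (code x) e l) w) = QP.block a.bits c.bits ∧
            (1 - ε) * ((val x : ℚ≥0) : ℝ) ≤ (a : ℝ) / c ∧
            (a : ℝ) / c ≤ (1 + ε) * ((val x : ℚ≥0) : ℝ))
    have hcpos : 0 < cf (rep x) := hpos x
    have hcr : (0 : ℝ) < ((cf (rep x) : ℕ) : ℝ) := by exact_mod_cast hcpos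
    have hH : ((HQ Q : ℕ) : ℝ) = ((cf (rep x) : ℕ) : ℝ) * ((val x : ℚ≥0) : ℝ) := by
      have := congrArg (fun q : ℚ≥0 => (q : ℝ)) (hval x)
      push_cast at this ⊢
      exact this
    have hh0 : (0 : ℝ) ≤ ((val x : ℚ≥0) : ℝ) := by positivity
    have h5 : QP.prob (b ^ (2 * (c * d))) (fun w => ¬ ∃ a c : ℕ, 0 < c ∧
            g (QP.block (inputOf (code x) e l) w) = QP.block a.bits c.bits ∧
            (1 - ε) * ((val x : ℚ≥0) : ℝ) ≤ (a : ℝ) / c ∧
            (a : ℝ) / c ≤ (1 + ε) * ((val x : ℚ≥0) : ℝ)) ≤ (1 / 2) ^ l := by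
      refine le_trans ?_ ((prob_take hneed _).trans h3)
      refine prob_mono _ fun w _ hw hgd => hw ?_
      refine ⟨_, _, ?_, key x e l w, ?_, ?_⟩
      · exact hcpos
      · show _ ≤ ((alg ((rowsW (red Q), (⟨e⟩, ⟨l⟩)), ⟨w.take (needG Qf d (rep x, (⟨e⟩, ⟨l⟩)))⟩) : ℕ) : ℝ) /
          ((cf (rep x) : ℕ) : ℝ)
        rw [le_div_iff₀ hcr]
        refine le_trans ?_ hgd.1
        rw [hH]
        have : (1 - ε) ≤ (1 - 1 / (e : ℝ)) := by linarith
        calc (1 - ε) * ((val x : ℚ≥0) : ℝ) * ((cf (rep x) : ℕ) : ℝ)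
            ≤ (1 - 1 / (e : ℝ)) * ((val x : ℚ≥0) : ℝ) * ((cf (rep x) : ℕ) : ℝ) := by
              gcongr
          _ = _ := by ring
      · show ((alg ((rowsW (red Q), (⟨e⟩, ⟨l⟩)), ⟨w.take (needG Qf d (rep x, (⟨e⟩, ⟨l⟩)))⟩) : ℕ) : ℝ) /
          ((cf (rep x) : ℕ) : ℝ) ≤ _
        rw [div_le_iff₀ hcr]
        refine le_trans hgd.2 ?_
        rw [hH]
        calc (1 + 1 / (e : ℝ)) * (((cf (rep x) : ℕ) : ℝ) * ((val x : ℚ≥0) : ℝ))
            = (1 + 1 / (e : ℝ)) * ((val x : ℚ≥0) : ℝ) * ((cf (rep x) : ℕ) : ℝ) := by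
              ring
          _ ≤ _ := by gcongr
    linarith only [h2, h4, h5]

end Gen

end Vale.Agent.P308.Deg
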