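import Vale.Agent.P308.H655.Pt

/-!
# The approximation schemes
-/

set_option linter.all false

namespace Vale.Agent.P308.Deg

open Vale.Agent.Lib.PolyTime Vale.Agent.P308.Alg Vale.Agent.P308.Hafnian Finset Function

theorem fpras_degSum (h1 : C1) (h3 : ∀ (n : ℕ) (A : Matrix (Fin n) (Fin n) ℚ≥0), A.IsSymm →
    ∀ t : Fin n → ℕ, ((HQ (gad (intM (matL A)) (List.ofFn t)) : ℕ) : ℚ≥0) =
      ((dn (matL A) ^ edg n (List.ofFn t) * facs n (List.ofFn t) : ℕ) : ℚ≥0) * degSum A t) :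
    HasFPRAS (fun x : Σ X : WeightedGraph, Fin X.n → ℕ => QP.block (matWord x.1.A) (degWord x.2))
      (fun x => degSum x.1.A x.2) := by
  refine hasFPRAS_of (α := List (List (ℕ × ℕ)) × List ℕ) _ _
    (fun x => (matL x.1.A, List.ofFn x.2)) ?_ (Qf := fun x => gad (intM x.1) x.2) (cf := cDeg)
    (PT_gad (PT_intM PT.fst') PT.snd') PT_cDeg ?_ ?_ ?_
  · rintro ⟨X, t⟩
    rw [enc_pair, enc_degWord, enc_matWord, QP.block_eq]
  · rintro ⟨X, t⟩
    exact (h1 _ _ (sym_intM X.A X.symm)).1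
  · rintro ⟨X, t⟩
    exact Nat.mul_pos (Nat.pow_pos (dn_pos X.A)) (facs_pos _ _)
  · rintro ⟨X, t⟩
    have := h3 X.n X.A X.symm t
    rw [this]
    congr 2
    show _ = cDeg (matL X.A, List.ofFn t)
    unfold cDeg
    rw [length_matL]

theorem fpras_numGraphs (h1 : C1) (h4 : C4) :
    HasFPRAS (fun x : Σ n : ℕ, Fin n → ℕ => degWord x.2)
      (fun x => ((numGraphs x.2 : ℕ) : ℚ≥0)) := by
  have hb : PBd (fun t : List ℕ => t.length) := PBd.length (PT.id (A := ∅))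
  refine hasFPRAS_of (α := List ℕ) _ _ (fun x => List.ofFn x.2) ?_
    (Qf := fun t => gad (ones t.length) t) (cf := fun t => facs t.length t)
    (PT_gad (PT_ones PT.id.length hb) PT.id)
    (PT_facs PT.id.length hb PT.id) ?_ ?_ ?_
  · rintro ⟨n, t⟩
    exact enc_degWord t
  · rintro ⟨n, t⟩
    exact (h1 _ _ (sym_mk fun x y => rfl)).1
  · rintro ⟨n, t⟩
    exact facs_pos _ _
  · rintro ⟨n, t⟩
    have := h4 n t
    show ((HQ (gad (ones (List.ofFn t).length) (List.ofFn t)) : ℕ) : ℚ≥0) =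
      ((facs (List.ofFn t).length (List.ofFn t) : ℕ) : ℚ≥0) * ((numGraphs t : ℕ) : ℚ≥0)
    rw [List.length_ofFn, this]
    push_cast
    rfl

theorem fpras_matchSum (h2 : C2) (h3 : ∀ (n : ℕ) (A : Matrix (Fin n) (Fin n) ℚ≥0), A.IsSymm →
    ∀ k : ℕ, ((HQ (gadM (intM (matL A)) k) : ℕ) : ℚ≥0) =
      ((dn (matL A) ^ Min.min k n * facN (dum n k) : ℕ) : ℚ≥0) * matchSum A k) :
    HasFPRAS (fun x : WeightedGraph × ℕ => QP.block (matWord x.1.A) x.2.bits)
      (fun x => matchSum x.1.A x.2) := by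
  refine hasFPRAS_of (α := List (List (ℕ × ℕ)) × ℕ) _ _
    (fun x => (matL x.1.A, x.2)) ?_ (Qf := fun x => gadM (intM x.1) x.2) (cf := cMat)
    (PT_gadM (PT_intM PT.fst') PT.snd') PT_cMat ?_ ?_ ?_
  · rintro ⟨X, k⟩
    rw [enc_pair, enc_nat, enc_matWord, QP.block_eq]
  · rintro ⟨X, k⟩
    exact (h2 _ _ (sym_intM X.A X.symm)).1
  · rintro ⟨X, k⟩
    exact Nat.mul_pos (Nat.pow_pos (dn_pos X.A)) (facN_pos _)
  · rintro ⟨X, k⟩
    have := h3 X.n X.A X.symm k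
    rw [this]
    congr 2
    show _ = cMat (matL X.A, k)
    unfold cMat
    rw [length_matL]

end Vale.Agent.P308.Deg
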