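import Vale.Agent.P308.H655.Gad
import Vale.Agent.P308.H655.Fpras

/-!
# The gadgets are computable in polynomial time
-/

set_option linter.all false

namespace Vale.Agent.P308.Deg

open Vale.Agent.Lib.PolyTime Vale.Agent.P308.Alg Vale.Agent.P308.Hafnian Finset Function

section PT

variable {A : Set Word} {α : Type*} [Enc α]

theorem PT_facN {m : α → ℕ} (hm : PT A m) (hmb : PBd m) : PT A (fun a => facN (m a)) := by
  unfold facN
  exact PT.prod (PT.map (f := fun (_ : α) i => i + 1) (PT.range hm hmb) (PT.snd'.add (PT.const 1)))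

theorem PT_facs {n : α → ℕ} {t : α → List ℕ} (hn : PT A n) (hnb : PBd n) (ht : PT A t) :
    PT A (fun a => facs (n a) (t a)) := by
  unfold facs
  refine PT.prod (PT.map (f := fun (a : α) v => facN (n a - (t a).getD v 0)) (PT.range hn hnb) ?_)
  refine PT_facN ((hn.comp PT.fst').sub (PT.getD (ht.comp PT.fst') PT.snd' (PT.const 0))) ?_
  exact (hnb.comp (PT.fst' (A := A))).mono fun a => Nat.sub_le _ _

theorem PT_edg {n : α → ℕ} {t : α → List ℕ} (hn : PT A n) (hnb : PBd n) (ht : PT A t) :
    PT A (fun a => edg (n a) (t a)) := by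
  unfold edg
  refine PT.half (PT.sum (PT.map (f := fun (a : α) v => Min.min ((t a).getD v 0) (n a))
    (PT.range hn hnb) ?_))
  exact PT.min (PT.getD (ht.comp PT.fst') PT.snd' (PT.const 0)) (hn.comp PT.fst')

theorem edg_le (n : ℕ) (t : List ℕ) : edg n t ≤ n * n := by
  unfold edg
  refine (Nat.div_le_self _ _).trans ?_
  have h : ∀ l : List ℕ, (l.map fun v => Min.min (t.getD v 0) n).sum ≤ l.length * n := by
    intro l
    induction l with
    | nil => simp
    | cons a l ih =>
      rw [List.map_cons, List.sum_cons, List.length_cons, Nat.succ_mul]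
      have : Min.min (t.getD a 0) n ≤ n := min_le_right _ _
      omega
  have := h (List.range n)
  rwa [List.length_range] at this

theorem PT_own {n : α → ℕ} {t : α → List ℕ} (hn : PT A n) (hnb : PBd n) (ht : PT A t) :
    PT A (fun a => own (n a) (t a)) := by
  unfold own
  refine PT.flatten (PT.map (f := fun (a : α) v => List.replicate (n a - (t a).getD v 0) v)
    (PT.range hn hnb) ?_)
  refine PT.replicate ((hn.comp PT.fst').sub (PT.getD (ht.comp PT.fst') PT.snd' (PT.const 0))) ?_
    PT.snd'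
  exact (hnb.comp (PT.fst' (A := A))).mono fun a => Nat.sub_le _ _

theorem PT_gadF {Q : α → List (List ℕ)} {o : α → List ℕ} {x y : α → ℕ} (hQ : PT A Q)
    (ho : PT A o) (hx : PT A x) (hy : PT A y) :
    PT A (fun a => gadF (Q a).length (ent (Q a)) (o a) (x a) (y a)) := by
  have hn : PT A (fun a => (Q a).length) := hQ.length
  have hnn : PT A (fun a => (Q a).length * (Q a).length) := hn.mul hn
  have hxd := hx.div hn
  have hxm := hx.mod hn
  have hyd := hy.div hn
  have hym := hy.mod hn
  unfold gadF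
  refine PT.ite (PT.decide_and (PT.lt hx hnn) (PT.lt hy hnn)) ?_ ?_
  · exact PT.ite (PT.decide_and (PT.eqNat hxd hym) (PT.decide_and (PT.eqNat hxm hyd)
      (PT.decide_not (PT.eqNat hxd hxm)))) (PT_ent hQ hxd hxm) (PT.const 0)
  refine PT.ite (PT.decide_and (PT.lt hx hnn) (PT.le hnn hy)) ?_ ?_
  · exact PT.ite (PT.eqNat (PT.getD ho (hy.sub hnn) (PT.const 0)) hxd) (PT.const 1) (PT.const 0)
  refine PT.ite (PT.decide_and (PT.le hnn hx) (PT.lt hy hnn)) ?_ (PT.const 0)
  exact PT.ite (PT.eqNat (PT.getD ho (hx.sub hnn) (PT.const 0)) hyd) (PT.const 1) (PT.const 0)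

theorem PT_gad {Q : α → List (List ℕ)} {t : α → List ℕ} (hQ : PT A Q) (ht : PT A t) :
    PT A (fun a => gad (Q a) (t a)) := by
  have hn : PT A (fun a => (Q a).length) := hQ.length
  have hnb : PBd (fun a => (Q a).length) := PBd.length hQ
  have ho : PT A (fun a => own (Q a).length (t a)) := PT_own hn hnb ht
  unfold gad
  refine PT_mk ((hn.mul hn).add ho.length) ((hnb.mul hnb).add (PBd.length ho)) ?_
  have h0 : PT A (fun p : (α × ℕ) × ℕ => p.1.1) := PT.fst'.fst
  exact PT_gadF (hQ.comp h0) (ho.comp h0) PT.fst'.snd PT.snd'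

theorem PT_dum {n k : α → ℕ} (hn : PT A n) (hk : PT A k) : PT A (fun a => dum (n a) (k a)) := by
  unfold dum
  have h2 : PT A (fun a => 2 * k a) := (PT.const 2).mul hk
  exact PT.ite (PT.le h2 hn) (hn.sub h2) (hn.add (PT.const 1))

theorem dum_le (n k : ℕ) : dum n k ≤ n + 1 := by
  unfold dum
  split_ifs <;> omega

theorem PT_gadM {Q : α → List (List ℕ)} {k : α → ℕ} (hQ : PT A Q) (hk : PT A k) :
    PT A (fun a => gadM (Q a) (k a)) := by
  have hn : PT A (fun a => (Q a).length) := hQ.length
  have hnb : PBd (fun a => (Q a).length) := PBd.length hQ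
  unfold gadM
  refine PT_mk (hn.add (PT_dum hn hk)) (hnb.add ((hnb.add (PBd.const 1)).mono fun a =>
    dum_le _ _)) ?_
  have h0 : PT A (fun p : (α × ℕ) × ℕ => p.1.1) := PT.fst'.fst
  have hx : PT A (fun p : (α × ℕ) × ℕ => p.1.2) := PT.fst'.snd
  have hy : PT A (fun p : (α × ℕ) × ℕ => p.2) := PT.snd'
  have hn' : PT A (fun p : (α × ℕ) × ℕ => (Q p.1.1).length) := hn.comp h0
  unfold gadMF
  exact PT.ite (PT.decide_and (PT.lt hx hn') (PT.lt hy hn')) (PT_ent (hQ.comp h0) hx hy)
    (PT.ite (PT.decide_or (PT.lt hx hn') (PT.lt hy hn')) (PT.const 1) (PT.const 0))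

theorem PT_ones {n : α → ℕ} (hn : PT A n) (hnb : PBd n) : PT A (fun a => ones (n a)) := by
  unfold ones
  exact PT_mk hn hnb (PT.const 1)

/-- the denominator for degree sums -/
def cDeg (x : List (List (ℕ × ℕ)) × List ℕ) : ℕ :=
  dn x.1 ^ edg x.1.length x.2 * facs x.1.length x.2

/-- the denominator for matching sums -/
def cMat (x : List (List (ℕ × ℕ)) × ℕ) : ℕ :=
  dn x.1 ^ Min.min x.2 x.1.length * facN (dum x.1.length x.2)

theorem PT_cDeg : PT A cDeg := by
  unfold cDeg
  have hT : PT A (fun x : List (List (ℕ × ℕ)) × List ℕ => x.1) := PT.fst'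
  have ht : PT A (fun x : List (List (ℕ × ℕ)) × List ℕ => x.2) := PT.snd'
  have hn := hT.length
  have hnb := PBd.length hT
  refine (PT.pow (PT_dn hT) (PT_edg hn hnb ht) ?_).mul (PT_facs hn hnb ht)
  exact (hnb.mul hnb).mono fun a => edg_le _ _

theorem PT_cMat : PT A cMat := by
  unfold cMat
  have hT : PT A (fun x : List (List (ℕ × ℕ)) × ℕ => x.1) := PT.fst'
  have hk : PT A (fun x : List (List (ℕ × ℕ)) × ℕ => x.2) := PT.snd'
  have hn := hT.length
  have hnb := PBd.length hT
  refine (PT.pow (PT_dn hT) (hk.min hn) (hnb.mono fun a => min_le_right _ _)).mul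
    (PT_facN (PT_dum hn hk) ((hnb.add (PBd.const 1)).mono fun a => dum_le _ _))

end PT

theorem facN_pos (m : ℕ) : 0 < facN m := by
  unfold facN
  rw [Nat.pos_iff_ne_zero, Ne, List.prod_eq_zero_iff, List.mem_map]
  rintro ⟨i, -, hi⟩
  omega

theorem facs_pos (n : ℕ) (t : List ℕ) : 0 < facs n t := by
  unfold facs
  rw [Nat.pos_iff_ne_zero, Ne, List.prod_eq_zero_iff, List.mem_map]
  rintro ⟨i, -, hi⟩
  exact (facN_pos _).ne' hi

/-! ### Words -/

theorem enc_degWord {n : ℕ} (t : Fin n → ℕ) : enc (List.ofFn t) = degWord t := by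
  have h : ∀ l : List ℕ, enc l = (l.map fun a => a.bits).foldr QP.block [] := by
    intro l
    induction l with
    | nil => rfl
    | cons a l ih =>
      rw [List.map_cons, List.foldr_cons, enc_cons, ih, QP.block_eq]
      rfl
  rw [h, degWord, List.map_ofFn]
  rfl

theorem enc_matWord {n : ℕ} (M : Matrix (Fin n) (Fin n) ℚ≥0) : enc (matL M) = matWord M := by
  have h1 : ∀ L : List (ℕ × ℕ), (L.map fun p => QP.block p.1.bits p.2.bits).foldr QP.block [] =
      enc L := by
    intro L
    induction L with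
    | nil => rfl
    | cons p L ih =>
      rw [List.map_cons, List.foldr_cons, ih, enc_cons, QP.block_eq, QP.block_eq]
      rfl
  have h2 : ∀ L : List (List (ℕ × ℕ)), (L.map fun r => enc r).foldr QP.block [] = enc L := by
    intro L
    induction L with
    | nil => rfl
    | cons p L ih => rw [List.map_cons, List.foldr_cons, ih, enc_cons, QP.block_eq]
  rw [← h2]
  unfold matWord matL
  rw [List.map_ofFn]
  congr 2
  funext i
  show enc _ = _
  rw [← h1, List.map_ofFn]
  rfl

end Vale.Agent.P308.Deg
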